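import Vale.Agent.H92.P343.Example

/-!
# P343: complementing two-way nondeterministic automata needs quadratically many states

Model (see `Vale.Agent.H92.P343.Defs`): a two-way nondeterministic automaton with state type
`Q` over the alphabet `σ` has an initial state, a set of accepting states and, for every state
and scanned symbol (left endmarker, letter, right endmarker), a set of (new state, head move)
pairs; it works on the tape `⊢ w ⊣`, starts on the left endmarker, never leaves the tape, and
accepts when some finite computation reaches an accepting state.  The size is the number of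
states.

For every `m ≥ 2` we give an automaton `A` with `m + 2` states over a one-letter alphabet that
never moves its head to the left (a one-way nondeterministic automaton) such that every two-way
nondeterministic automaton recognizing the complement of the language of `A` has at least
`m * m - m - 1` states.  Consequently any function `p` bounding the cost of complementation
satisfies `p n ≥ n * n - 5 * n + 5` for all `n ≥ 4`.

The proof is a pumping lemma for two-way nondeterministic automata over a one-letter alphabet
(`pumping`): an automaton with `s` states that accepts a word of length `ℓ > s` also accepts the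
word of length `ℓ + s!`.  The automaton `A` accepts exactly the words whose length is
`x * m + y * (m + 1)`, so the complement is finite with longest word of length `m * m - m - 1`.
-/

namespace Vale.Agent.Results.P343.A_QuadraticComplement

open Vale.Agent.H92.P343

theorem lower_bound (m : ℕ) (hm : 2 ≤ m) (Q : Type) [Fintype Q] (B : TwoNFA Unit Q)
    (hB : ∀ w, B.Accepts w ↔ ¬ (exAut m).Accepts w) : m * m ≤ Fintype.card Q + m + 1 := by
  by_contra hlt
  have hm0 : 0 < m := by omega
  have hmm : 2 * m ≤ m * m := Nat.mul_le_mul_right m hm
  obtain ⟨F, hF⟩ : ∃ F, F + m + 1 = m * m := ⟨m * m - m - 1, by omega⟩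
  have hF1 : Fintype.card Q + 1 ≤ F := by omega
  have hrej : ¬ (exAut m).Accepts (List.replicate F ()) := by
    intro h
    obtain ⟨x, y, hxy⟩ := ex_accepts_rep m F hm0 h
    exact ex_gap m ⟨x, y, by omega⟩
  have hBacc : B.Accepts (List.replicate F ()) := (hB _).2 hrej
  have hpump := pumping B F (Nat.factorial (Fintype.card Q)) hF1
    (fun d hd1 hd2 => Nat.dvd_factorial hd1 hd2) hBacc
  have hAacc : (exAut m).Accepts (List.replicate (F + (Fintype.card Q).factorial) ()) := by
    apply ex_accepts_of_rep m _ hm0
    apply ex_rep_of_large m _ hm0
    have := Nat.factorial_pos (Fintype.card Q)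
    omega
  exact (hB _).1 hpump hAacc

/-- (1) For every `m ≥ 2` there is a one-way nondeterministic automaton `A` (a two-way
nondeterministic automaton that never moves left) with `m + 2` states over a one-letter
alphabet such that every two-way nondeterministic automaton `B` recognizing the complement of
the language of `A` has at least `m * m - m - 1` states.
(2) Hence, if every `n`-state two-way nondeterministic automaton over a one-letter alphabet has
a complementing two-way nondeterministic automaton with at most `p n` states, then
`p n ≥ n * n - 5 * n + 5` for all `n ≥ 4`. -/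
theorem result :
    (∀ m : ℕ, 2 ≤ m →
      ∃ (Q₀ : Type) (_ : Fintype Q₀) (A : TwoNFA Unit Q₀),
        Fintype.card Q₀ = m + 2 ∧
        (∀ (q : Q₀) (s : Sym Unit) (q' : Q₀), (q', Move.left) ∉ A.trans q s) ∧
        ∀ (Q : Type) [Fintype Q] (B : TwoNFA Unit Q),
          (∀ w : List Unit, B.Accepts w ↔ ¬ A.Accepts w) →
            m * m ≤ Fintype.card Q + m + 1) ∧
    (∀ p : ℕ → ℕ,
      (∀ (Q₀ : Type) [Fintype Q₀] (A : TwoNFA Unit Q₀),
        ∃ (Q : Type) (_ : Fintype Q) (B : TwoNFA Unit Q),
          Fintype.card Q ≤ p (Fintype.card Q₀) ∧
          ∀ w : List Unit, B.Accepts w ↔ ¬ A.Accepts w) →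
      ∀ n : ℕ, 4 ≤ n → n * n + 5 ≤ p n + 5 * n) := by
  refine ⟨?_, ?_⟩
  · intro m hm
    exact ⟨Fin (m + 2), inferInstance, exAut m, by simp, exTrans_no_left m,
      fun Q _ B hB => lower_bound m hm Q B hB⟩
  · intro p hp n hn
    obtain ⟨m, rfl⟩ : ∃ m, n = m + 2 := ⟨n - 2, by omega⟩
    obtain ⟨Q, hQ, B, hcard, hB⟩ := hp (Fin (m + 2)) (exAut m)
    have h1 := lower_bound m (by omega) Q B hB
    have h2 : Fintype.card (Fin (m + 2)) = m + 2 := by simp
    rw [h2] at hcard
    have e : (m + 2) * (m + 2) = m * m + 4 * m + 4 := by ring
    omega

end Vale.Agent.Results.P343.A_QuadraticComplement
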