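import Vale.Agent.H92.P343.Example

/-!
# P343: pumping for unary two-way automata, the exact witness language, and the quadratic bound

Model as in `Vale.Agent.H92.P343.Defs`.  Three statements:

1. (pumping) a two-way nondeterministic automaton with `s` states over a one-letter alphabet
   that accepts the word of length `ℓ > s` also accepts the word of length `ℓ + s!`;
2. for every `m ≥ 2` there is an automaton `A` with `m + 2` states over a one-letter alphabet
   that never moves its head left, accepts exactly the words whose length is of the form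
   `x * m + y * (m + 1)` (so it rejects the word of length `m * m - m - 1` and accepts every
   longer word), and such that every two-way nondeterministic automaton recognizing the
   complement of its language has at least `m * m - m - 1` states;
3. hence any function `p` bounding the cost of complementing two-way nondeterministic automata
   over a one-letter alphabet satisfies `p n ≥ n * n - 5 * n + 5` for `n ≥ 4`.
-/

namespace Vale.Agent.Results.P343.B_PumpingAndExactWitness

open Vale.Agent.H92.P343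

theorem lower_bound (m : ℕ) (hm : 2 ≤ m) (Q : Type) [Fintype Q] (B : TwoNFA Unit Q)
    (hB : ∀ w, B.Accepts w ↔ ¬ (exAut m).Accepts w) : m * m ≤ Fintype.card Q + m + 1 := by
  by_contra hlt
  have hm0 : 0 < m := by omega
  have hmm : 2 * m ≤ m * m := Nat.mul_le_mul_right m hm
  obtain ⟨F, hF⟩ : ∃ F, F + m + 1 = m * m := ⟨m * m - m - 1, by omega⟩
  have hF1 : Fintype.card Q + 1 ≤ F := by omega
  have hrej : ¬ (exAut m).Accepts (List.replicate F ()) := by
    intro h
    obtain ⟨x, y, hxy⟩ := ex_accepts_rep m F hm0 h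
    exact ex_gap m ⟨x, y, by omega⟩
  have hBacc : B.Accepts (List.replicate F ()) := (hB _).2 hrej
  have hpump := pumping B F (Nat.factorial (Fintype.card Q)) hF1
    (fun d hd1 hd2 => Nat.dvd_factorial hd1 hd2) hBacc
  have hAacc : (exAut m).Accepts (List.replicate (F + (Fintype.card Q).factorial) ()) := by
    apply ex_accepts_of_rep m _ hm0
    apply ex_rep_of_large m _ hm0
    have := Nat.factorial_pos (Fintype.card Q)
    omega
  exact (hB _).1 hpump hAacc

theorem result :
    (∀ (Q : Type) [Fintype Q] (M : TwoNFA Unit Q) (ℓ : ℕ), Fintype.card Q + 1 ≤ ℓ →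
      M.Accepts (List.replicate ℓ ()) →
      M.Accepts (List.replicate (ℓ + (Fintype.card Q).factorial) ())) ∧
    (∀ m : ℕ, 2 ≤ m →
      ∃ (Q₀ : Type) (_ : Fintype Q₀) (A : TwoNFA Unit Q₀),
        Fintype.card Q₀ = m + 2 ∧
        (∀ (q : Q₀) (s : Sym Unit) (q' : Q₀), (q', Move.left) ∉ A.trans q s) ∧
        (∀ ℓ : ℕ, A.Accepts (List.replicate ℓ ()) ↔ ∃ x y : ℕ, ℓ = x * m + y * (m + 1)) ∧
        (∀ ℓ : ℕ, ℓ + m + 1 = m * m → ¬ A.Accepts (List.replicate ℓ ())) ∧
        (∀ ℓ : ℕ, m * m ≤ ℓ + m → A.Accepts (List.replicate ℓ ())) ∧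
        ∀ (Q : Type) [Fintype Q] (B : TwoNFA Unit Q),
          (∀ w : List Unit, B.Accepts w ↔ ¬ A.Accepts w) →
            m * m ≤ Fintype.card Q + m + 1) ∧
    (∀ p : ℕ → ℕ,
      (∀ (Q₀ : Type) [Fintype Q₀] (A : TwoNFA Unit Q₀),
        ∃ (Q : Type) (_ : Fintype Q) (B : TwoNFA Unit Q),
          Fintype.card Q ≤ p (Fintype.card Q₀) ∧
          ∀ w : List Unit, B.Accepts w ↔ ¬ A.Accepts w) →
      ∀ n : ℕ, 4 ≤ n → n * n + 5 ≤ p n + 5 * n) := by
  refine ⟨?_, ?_, ?_⟩
  · intro Q _ M ℓ hℓ h
    exact pumping M ℓ (Nat.factorial (Fintype.card Q)) hℓ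
      (fun d hd1 hd2 => Nat.dvd_factorial hd1 hd2) h
  · intro m hm
    have hm0 : 0 < m := by omega
    refine ⟨Fin (m + 2), inferInstance, exAut m, by simp, exTrans_no_left m, ?_, ?_, ?_,
      fun Q _ B hB => lower_bound m hm Q B hB⟩
    · intro ℓ
      exact ⟨ex_accepts_rep m ℓ hm0, ex_accepts_of_rep m ℓ hm0⟩
    · intro ℓ hℓ h
      obtain ⟨x, y, hxy⟩ := ex_accepts_rep m ℓ hm0 h
      exact ex_gap m ⟨x, y, by omega⟩
    · intro ℓ hℓ
      exact ex_accepts_of_rep m ℓ hm0 (ex_rep_of_large m ℓ hm0 hℓ)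
  · intro p hp n hn
    obtain ⟨m, rfl⟩ : ∃ m, n = m + 2 := ⟨n - 2, by omega⟩
    obtain ⟨Q, hQ, B, hcard, hB⟩ := hp (Fin (m + 2)) (exAut m)
    have h1 := lower_bound m (by omega) Q B hB
    have h2 : Fintype.card (Fin (m + 2)) = m + 2 := by simp
    rw [h2] at hcard
    have e : (m + 2) * (m + 2) = m * m + 4 * m + 4 := by ring
    omega

end Vale.Agent.Results.P343.B_PumpingAndExactWitness
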